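import Crest.Agent.R163.Q3.D.S2.S0
import Crest.Agent.R163.Q3.D.S2.H

set_option autoImplicit false
set_option maxRecDepth 100000
set_option linter.all false
set_option Elab.async false

namespace Crest.Agent.R163.S2

theorem p0_5_1 : Ok par f5 ((Box3.unit.r 1).r 0) (selB 0 (selB 0 C0 15914343266369582316696444456875961878530402545696733938936313263396040627270571460201855) 29578431) :=
  Ok.run hw hf5 ⟨497,25,25,1,10⟩ 59
    (.part 13360 (.chk false 0) (.split 1 (.chk false 0) (.part 79 (.chk false 0) (.split 0 (.part 5 (.chk false 0) (.split 1 (.chk false 0) (.chk false 0))) (.part 8 (.chk false 0) (.split 1 (.part 6 (.chk false 0) (.split 0 (.chk false 0) (.split 1 (.split 0 (.chk false 0) (.split 1 (.chk false 0) (.chk false 0))) (.chk false 0)))) (.part 3 (.chk false 0) (.split 0 (.chk false 0) (.split 1 (.chk false 0) (.chk false 0))))))))))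
    (by decide +kernel)

theorem p0_5_2 : Ok par f5 (Box3.unit.r 1) (selB 1 (selB 0 C0 15914343266369582316696444456875961878530402545696733938936313263396040627270571460201855) 29578431) :=
  Ok.run hw hf5 ⟨280,25,25,1,10⟩ 59
    (.chk false 0)
    (by decide +kernel)

theorem p0_5_3 : Ok par f5 (Box3.unit.l 1) (selB 0 C0 15914343266369582316696444456875961878530402545696733938936313263396040627270571460201855) :=
  Ok.run hw hf5 ⟨427,25,25,1,10⟩ 59
    (.part 507427793 (.chk false 0) (.split 0 (.part 1015 (.chk false 0) (.split 0 (.split 0 (.chk false 0) (.chk false 0)) (.chk false 0))) (.part 796 (.chk false 0) (.split 1 (.part 29 (.chk false 0) (.split 1 (.chk false 0) (.chk false 0))) (.part 11 (.chk false 0) (.split 0 (.part 2 (.chk false 0) (.split 0 (.split 1 (.split 0 (.chk false 0) (.chk false 0)) (.chk false 0)) (.chk false 0))) (.part 1 (.chk false 0) (.split 1 (.chk false 0) (.chk false 0)))))))))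
    (by decide +kernel)

theorem p0_5_4 : Ok par f5 Box3.unit (selB 1 C0 15914343266369582316696444456875961878530402545696733938936313263396040627270571460201855) :=
  Ok.run hw hf5 ⟨242,25,25,1,10⟩ 59
    (.chk false 0)
    (by decide +kernel)

theorem p0_6_0 : Ok par f6 Box3.unit C0 :=
  Ok.run hw hf6 ⟨462,25,25,1,10⟩ 59
    (.part 15914343565113172548972231940698266883214596825515126958094847260581103904401068016393983 (.chk false 0) (.split 1 (.chk false 0) (.split 0 (.part 14 (.chk false 0) (.split 1 (.chk false 0) (.split 0 (.chk false 0) (.split 1 (.chk false 0) (.split 0 (.chk false 0) (.split 1 (.chk false 0) (.split 0 (.chk false 0) (.chk false 0)))))))) (.chk false 0))))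
    (by decide +kernel)

theorem p0_7_0 : Ok par f7 (((Box3.unit.l 1).r 0).r 1) (selB 1 (selB 0 (selB 0 (selB 0 C0 11939720452608729851647721886879270238052964903508074585295336647874627211335561414434815) 5304152401409258058846468869740785547272277385133127296874631) 1388872745) 283) :=
  Ok.run hw hf7 ⟨336,25,25,1,10⟩ 59
    (.chk false 0)
    (by decide +kernel)

theorem p0_7_1 : Ok par f7 (((Box3.unit.l 1).r 0).r 1) (selB 0 (selB 0 (selB 0 (selB 0 C0 11939720452608729851647721886879270238052964903508074585295336647874627211335561414434815) 5304152401409258058846468869740785547272277385133127296874631) 1388872745) 283) :=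
  Ok.run hw hf7 ⟨489,25,25,1,10⟩ 59
    (.split 0 (.part 61823 (.chk false 0) (.split 1 (.chk false 0) (.part 1 (.chk false 0) (.split 0 (.chk false 0) (.part 3 (.chk false 0) (.split 1 (.chk false 0) (.split 0 (.chk false 0) (.split 1 (.chk false 0) (.chk false 0))))))))) (.part 24558 (.chk false 0) (.split 1 (.part 6 (.chk false 0) (.split 1 (.part 2 (.chk false 0) (.split 0 (.chk false 0) (.chk false 0))) (.part 1 (.chk false 0) (.split 0 (.chk false 0) (.split 1 (.chk false 0) (.split 0 (.chk false 0) (.chk false 0))))))) (.part 5 (.chk false 0) (.split 1 (.split 0 (.chk false 0) (.split 1 (.part 1 (.chk false 0) (.split 0 (.chk false 0) (.chk false 0))) (.chk false 0))) (.chk false 0))))))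
    (by decide +kernel)

theorem p0_7_2 : Ok par f7 (((Box3.unit.l 1).r 0).l 1) (selB 0 (selB 0 (selB 0 C0 11939720452608729851647721886879270238052964903508074585295336647874627211335561414434815) 5304152401409258058846468869740785547272277385133127296874631) 1388872745) :=
  Ok.run hw hf7 ⟨411,25,25,1,10⟩ 59
    (.part 2088862 (.chk false 0) (.split 0 (.part 7 (.chk false 0) (.split 0 (.split 0 (.chk false 0) (.chk false 0)) (.chk false 0))) (.chk false 0)))
    (by decide +kernel)

theorem p0_7_3 : Ok par f7 ((Box3.unit.l 1).r 0) (selB 1 (selB 0 (selB 0 C0 11939720452608729851647721886879270238052964903508074585295336647874627211335561414434815) 5304152401409258058846468869740785547272277385133127296874631) 1388872745) :=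
  Ok.run hw hf7 ⟨318,25,25,1,10⟩ 59
    (.chk false 0)
    (by decide +kernel)

theorem p0_7_4 : Ok par f7 ((Box3.unit.l 1).l 0) (selB 0 (selB 0 C0 11939720452608729851647721886879270238052964903508074585295336647874627211335561414434815) 5304152401409258058846468869740785547272277385133127296874631) :=
  Ok.run hw hf7 ⟨412,25,25,1,10⟩ 59
    (.part 4294967287 (.chk false 0) (.split 0 (.chk false 0) (.split 1 (.split 0 (.chk false 0) (.split 1 (.chk false 0) (.chk false 0))) (.chk false 0))))
    (by decide +kernel)

theorem p0_7_5 : Ok par f7 (Box3.unit.l 1) (selB 1 (selB 0 C0 11939720452608729851647721886879270238052964903508074585295336647874627211335561414434815) 5304152401409258058846468869740785547272277385133127296874631) :=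
  Ok.run hw hf7 ⟨280,25,25,1,10⟩ 59
    (.chk false 0)
    (by decide +kernel)

theorem p0_7_6 : Ok par f7 (((((Box3.unit.r 1).r 0).l 1).r 0).r 1) (selB 1 (selB 0 (selB 0 (selB 0 (selB 0 (selB 0 C0 11939720452608729851647721886879270238052964903508074585295336647874627211335561414434815) 33526146087945553944300201957619146434453557675115976056) 776471527718810101012754407244493259613057056775) 11150372640826505409555424515493497130704892) 2475804521283917608967471115) 295147779782677989181) :=
  Ok.run hw hf7 ⟨392,25,25,1,10⟩ 59
    (.chk false 0)
    (by decide +kernel)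

theorem p0_7_7 : Ok par f7 (((((Box3.unit.r 1).r 0).l 1).r 0).r 1) (selB 0 (selB 0 (selB 0 (selB 0 (selB 0 (selB 0 C0 11939720452608729851647721886879270238052964903508074585295336647874627211335561414434815) 33526146087945553944300201957619146434453557675115976056) 776471527718810101012754407244493259613057056775) 11150372640826505409555424515493497130704892) 2475804521283917608967471115) 295147779782677989181) :=
  Ok.run hw hf7 ⟨519,25,25,1,10⟩ 59
    (.split 0 (.part 84479 (.chk false 0) (.split 1 (.part 3 (.chk false 0) (.split 0 (.part 5 (.chk false 0) (.split 1 (.split 0 (.chk false 0) (.chk false 0)) (.chk false 0))) (.part 6 (.chk false 0) (.split 1 (.chk false 0) (.chk false 0))))) (.chk false 0))) (.part 130048 (.chk false 0) (.split 0 (.part 255 (.chk false 0) (.split 1 (.part 1 (.chk false 0) (.split 1 (.chk false 0) (.chk false 0))) (.chk false 0))) (.part 768 (.chk false 0) (.split 1 (.part 127 (.chk false 0) (.split 0 (.chk false 0) (.split 1 (.chk false 0) (.chk false 0)))) (.part 247 (.chk false 0) (.split 0 (.chk false 0) (.split 1 (.chk false 0) (.chk false 0)))))))))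
    (by decide +kernel)

theorem p0_7_8 : Ok par f7 (((((Box3.unit.r 1).r 0).l 1).r 0).l 1) (selB 0 (selB 0 (selB 0 (selB 0 (selB 0 C0 11939720452608729851647721886879270238052964903508074585295336647874627211335561414434815) 33526146087945553944300201957619146434453557675115976056) 776471527718810101012754407244493259613057056775) 11150372640826505409555424515493497130704892) 2475804521283917608967471115) :=
  Ok.run hw hf7 ⟨508,25,25,1,10⟩ 59
    (.part 286708589866530111487 (.chk false 0) (.split 0 (.part 49439 (.chk false 0) (.split 1 (.part 1791 (.chk false 0) (.split 1 (.chk false 0) (.chk false 0))) (.part 259 (.chk false 0) (.split 0 (.part 31 (.chk false 0) (.split 1 (.part 3 (.chk false 0) (.split 0 (.chk false 0) (.chk false 0))) (.chk false 0))) (.part 242 (.chk false 0) (.split 1 (.chk false 0) (.part 6 (.chk false 0) (.split 0 (.chk false 0) (.chk false 0))))))))) (.part 522049 (.chk false 0) (.split 1 (.chk false 0) (.chk false 0)))))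
    (by decide +kernel)

theorem p0_7_9 : Ok par f7 ((((Box3.unit.r 1).r 0).l 1).r 0) (selB 1 (selB 0 (selB 0 (selB 0 (selB 0 C0 11939720452608729851647721886879270238052964903508074585295336647874627211335561414434815) 33526146087945553944300201957619146434453557675115976056) 776471527718810101012754407244493259613057056775) 11150372640826505409555424515493497130704892) 2475804521283917608967471115) :=
  Ok.run hw hf7 ⟨365,25,25,1,10⟩ 59
    (.chk false 0)
    (by decide +kernel)

theorem p0_7_10 : Ok par f7 ((((Box3.unit.r 1).r 0).l 1).l 0) (selB 0 (selB 0 (selB 0 (selB 0 C0 11939720452608729851647721886879270238052964903508074585295336647874627211335561414434815) 33526146087945553944300201957619146434453557675115976056) 776471527718810101012754407244493259613057056775) 11150372640826505409555424515493497130704892) :=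
  Ok.run hw hf7 ⟨452,25,25,1,10⟩ 59
    (.part 31357596039476901304074239 (.chk false 0) (.split 1 (.part 141757 (.chk false 0) (.split 0 (.chk false 0) (.split 1 (.part 303 (.chk false 0) (.split 0 (.chk false 0) (.chk false 0))) (.part 251 (.chk false 0) (.split 0 (.chk false 0) (.chk false 0)))))) (.chk false 0)))
    (by decide +kernel)

theorem p0_7_11 : Ok par f7 (((Box3.unit.r 1).r 0).l 1) (selB 1 (selB 0 (selB 0 (selB 0 C0 11939720452608729851647721886879270238052964903508074585295336647874627211335561414434815) 33526146087945553944300201957619146434453557675115976056) 776471527718810101012754407244493259613057056775) 11150372640826505409555424515493497130704892) :=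
  Ok.run hw hf7 ⟨336,25,25,1,10⟩ 59
    (.chk false 0)
    (by decide +kernel)

theorem p0_7_12 : Ok par f7 (((Box3.unit.r 1).r 0).r 1) (selB 1 (selB 0 (selB 0 (selB 0 C0 11939720452608729851647721886879270238052964903508074585295336647874627211335561414434815) 33526146087945553944300201957619146434453557675115976056) 776471527718810101012754407244493259613057056775) 713623846352974869926439840343265840751239391) :=
  Ok.run hw hf7 ⟨347,25,25,1,10⟩ 59
    (.chk false 0)
    (by decide +kernel)

theorem p0_7_13 : Ok par f7 (((Box3.unit.r 1).r 0).r 1) (selB 0 (selB 0 (selB 0 (selB 0 C0 11939720452608729851647721886879270238052964903508074585295336647874627211335561414434815) 33526146087945553944300201957619146434453557675115976056) 776471527718810101012754407244493259613057056775) 713623846352974869926439840343265840751239391) :=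
  Ok.run hw hf7 ⟨546,25,25,1,10⟩ 59
    (.split 0 (.chk false 0) (.part 30065033344 (.chk false 0) (.split 0 (.chk false 0) (.part 67108880 (.chk false 0) (.split 0 (.chk false 0) (.part 1 (.chk false 0) (.split 1 (.part 53476367 (.chk false 0) (.split 0 (.chk false 0) (.split 1 (.part 1015 (.chk false 0) (.split 0 (.chk false 0) (.split 1 (.chk false 0) (.chk false 0)))) (.chk false 0)))) (.chk false 0))))))))
    (by decide +kernel)

theorem p0_7_14 : Ok par f7 ((Box3.unit.r 1).r 0) (selB 1 (selB 0 (selB 0 C0 11939720452608729851647721886879270238052964903508074585295336647874627211335561414434815) 33526146087945553944300201957619146434453557675115976056) 776471527718810101012754407244493259613057056775) :=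
  Ok.run hw hf7 ⟨318,25,25,1,10⟩ 59
    (.chk false 0)
    (by decide +kernel)

theorem p0_7_15 : Ok par f7 ((Box3.unit.r 1).l 0) (selB 0 (selB 0 C0 11939720452608729851647721886879270238052964903508074585295336647874627211335561414434815) 33526146087945553944300201957619146434453557675115976056) :=
  Ok.run hw hf7 ⟨318,25,25,1,10⟩ 59
    (.chk false 0)
    (by decide +kernel)

theorem p0_7_16 : Ok par f7 (Box3.unit.r 1) (selB 1 (selB 0 C0 11939720452608729851647721886879270238052964903508074585295336647874627211335561414434815) 33526146087945553944300201957619146434453557675115976056) :=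
  Ok.run hw hf7 ⟨280,25,25,1,10⟩ 59
    (.chk false 0)
    (by decide +kernel)

theorem p0_7_17 : Ok par f7 Box3.unit (selB 1 C0 11939720452608729851647721886879270238052964903508074585295336647874627211335561414434815) :=
  Ok.run hw hf7 ⟨242,25,25,1,10⟩ 59
    (.chk false 0)
    (by decide +kernel)

theorem p0_8_0 : Ok par f8 ((Box3.unit.l 0).l 1) (selB 0 (selB 0 C0 7961057120796992053013099518028655690422555603288137050418594585012639187844908851322879) 8216701686595407238140799001456685189811139675732245960771872209678346883) :=
  Ok.run hw hf8 ⟨363,25,25,1,10⟩ 59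
    (.part 72057594037927930 (.chk false 0) (.split 0 (.chk false 0) (.part 2 (.chk false 0) (.split 0 (.chk false 0) (.chk false 0)))))
    (by decide +kernel)

theorem p0_8_1 : Ok par f8 ((Box3.unit.l 0).r 1) (selB 0 (selB 0 C0 7961057120796992053013099518028655690422555603288137050418594585012639187844908851322879) 8216701686595407238140799001456685189811139675732245960771872209678346883) :=
  Ok.run hw hf8 ⟨488,25,25,1,10⟩ 59
    (.part 39582418600064 (.chk false 0) (.split 0 (.part 9007199254740983 (.chk false 0) (.split 1 (.chk false 0) (.split 0 (.chk false 0) (.chk false 0)))) (.part 5629378313928447 (.chk false 0) (.split 1 (.chk false 0) (.part 4160 (.chk false 0) (.split 0 (.chk false 0) (.part 6204 (.chk false 0) (.split 1 (.chk false 0) (.split 0 (.part 95 (.chk false 0) (.split 1 (.chk false 0) (.split 0 (.chk false 0) (.chk false 0)))) (.chk false 0))))))))))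
    (by decide +kernel)

theorem p0_8_2 : Ok par f8 (Box3.unit.l 0) (selB 1 (selB 0 C0 7961057120796992053013099518028655690422555603288137050418594585012639187844908851322879) 8216701686595407238140799001456685189811139675732245960771872209678346883) :=
  Ok.run hw hf8 ⟨280,25,25,1,10⟩ 59
    (.chk false 0)
    (by decide +kernel)

theorem p0_8_3 : Ok par f8 (((((((Box3.unit.r 0).r 1).l 0).r 1).l 0).r 1).l 0) (selB 0 (selB 0 (selB 0 (selB 0 (selB 0 (selB 0 (selB 0 C0 7961057120796992053013099518028655690422555603288137050418594585012639187844908851322879) 7067279366202311841671349222816449978868193043677526377351699783985922303) 5352177721814004445837577093019257867727798596) 310361075228648796827630561711384576) 232113757582181583661599753) 4231300334713567836835327) 16) :=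
  Ok.run hw hf8 ⟨533,25,25,1,10⟩ 59
    (.part 12981000732671 (.chk false 0) (.split 1 (.chk false 0) (.split 0 (.chk false 0) (.part 118 (.chk false 0) (.split 1 (.chk false 0) (.part 2 (.chk false 0) (.split 0 (.chk false 0) (.chk false 0))))))))
    (by decide +kernel)

theorem p0_8_4 : Ok par f8 (((((((Box3.unit.r 0).r 1).l 0).r 1).l 0).r 1).r 0) (selB 0 (selB 0 (selB 0 (selB 0 (selB 0 (selB 0 (selB 0 C0 7961057120796992053013099518028655690422555603288137050418594585012639187844908851322879) 7067279366202311841671349222816449978868193043677526377351699783985922303) 5352177721814004445837577093019257867727798596) 310361075228648796827630561711384576) 232113757582181583661599753) 4231300334713567836835327) 16) :=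
  Ok.run hw hf8 ⟨561,25,25,1,10⟩ 59
    (.part 17591896393187 (.chk false 0) (.split 0 (.part 3070 (.chk false 0) (.split 1 (.chk false 0) (.part 2 (.chk false 0) (.split 1 (.chk false 0) (.split 0 (.chk false 0) (.chk false 0)))))) (.part 8090 (.chk false 0) (.split 1 (.chk false 0) (.part 5 (.chk false 0) (.split 0 (.chk false 0) (.part 2 (.chk false 0) (.split 1 (.chk false 0) (.split 0 (.chk false 0) (.chk false 0))))))))))
    (by decide +kernel)

theorem p0_8_5 : Ok par f8 ((((((Box3.unit.r 0).r 1).l 0).r 1).l 0).r 1) (selB 1 (selB 0 (selB 0 (selB 0 (selB 0 (selB 0 (selB 0 C0 7961057120796992053013099518028655690422555603288137050418594585012639187844908851322879) 7067279366202311841671349222816449978868193043677526377351699783985922303) 5352177721814004445837577093019257867727798596) 310361075228648796827630561711384576) 232113757582181583661599753) 4231300334713567836835327) 16) :=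
  Ok.run hw hf8 ⟨412,25,25,1,10⟩ 59
    (.chk false 0)
    (by decide +kernel)


end Crest.Agent.R163.S2
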