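import Crest.Agent.R163.Q3.D.S2.P0_0
import Crest.Agent.R163.Q3.D.S2.P0_1
import Crest.Agent.R163.Q3.D.S2.P0_2

set_option autoImplicit false
set_option maxRecDepth 100000
set_option linter.all false
set_option Elab.async false

namespace Crest.Agent.R163.S2

theorem o0_8 : Ok par f8 Box3.unit C0 :=
  (Ok.part 7961057120796992053013099518028655690422555603288137050418594585012639187844908851322879 p0_8_18 (Ok.split 0 (Ok.part 8216701686595407238140799001456685189811139675732245960771872209678346883 p0_8_2 (Ok.split 1 p0_8_0 p0_8_1)) (Ok.part 7067279366202311841671349222816449978868193043677526377351699783985922303 p0_8_17 (Ok.split 1 p0_8_16 (Ok.part 5352177721814004445837577093019257867727798596 p0_8_15 (Ok.split 0 (Ok.part 310361075228648796827630561711384576 p0_8_11 (Ok.split 1 p0_8_10 (Ok.part 232113757582181583661599753 p0_8_9 (Ok.split 0 (Ok.part 4231300334713567836835327 p0_8_7 (Ok.split 1 p0_8_6 (Ok.part 16 p0_8_5 (Ok.split 0 p0_8_3 p0_8_4)))) p0_8_8)))) (Ok.part 332306998946228968225947293924588553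 p0_8_14 (Ok.split 1 p0_8_12 p0_8_13))))))))
theorem o0_7 : Ok par f7 Box3.unit C0 :=
  (Ok.part 11939720452608729851647721886879270238052964903508074585295336647874627211335561414434815 p0_7_17 (Ok.split 1 (Ok.part 5304152401409258058846468869740785547272277385133127296874631 p0_7_5 (Ok.split 0 p0_7_4 (Ok.part 1388872745 p0_7_3 (Ok.split 1 p0_7_2 (Ok.part 283 p0_7_0 p0_7_1))))) (Ok.part 33526146087945553944300201957619146434453557675115976056 p0_7_16 (Ok.split 0 p0_7_15 (Ok.part 776471527718810101012754407244493259613057056775 p0_7_14 (Ok.split 1 (Ok.part 11150372640826505409555424515493497130704892 p0_7_11 (Ok.split 0 p0_7_10 (Ok.part 2475804521283917608967471115 p0_7_9 (Ok.split 1 p0_7_8 (Ok.part 295147779782677989181 p0_7_6 p0_7_7))))) (Ok.part 713623846352974869926439840343265840751239391 p0_7_12 p0_7_13)))))))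
theorem o0_6 : Ok par f6 Box3.unit C0 :=
  p0_6_0
theorem o0_5 : Ok par f5 Box3.unit C0 :=
  (Ok.part 15914343266369582316696444456875961878530402545696733938936313263396040627270571460201855 p0_5_4 (Ok.split 1 p0_5_3 (Ok.part 29578431 p0_5_2 (Ok.split 0 p0_5_0 p0_5_1))))
theorem o0_4 : Ok par f4 Box3.unit C0 :=
  (Ok.part 15873547518375584124695981357131882247726873650268388135667300826801313670854129049665279 p0_4_0 p0_4_1)
theorem o0_3 : Ok par f3 Box3.unit C0 :=
  (Ok.part 13925050619470407477561786459270537213914533606007919782434783177552272816167772076638207 p0_3_0 p0_3_1)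
theorem o0_2 : Ok par f2 Box3.unit C0 :=
  (Ok.part 13945503137375006708129590303934342701314677516492004681972029595078258880536761686032375 p0_2_11 (Ok.split 0 (Ok.part 170141183460469222286954318190689275903 p0_2_0 p0_2_1) (Ok.part 10716254215254280031587304010041652220 p0_2_10 (Ok.split 1 p0_2_9 (Ok.part 37778931862957161767941 p0_2_8 (Ok.split 0 (Ok.part 18856897579010024795143 p0_2_6 (Ok.split 1 p0_2_5 (Ok.part 5072 p0_2_4 (Ok.split 0 p0_2_2 p0_2_3)))) p0_2_7))))))
theorem o0_1 : Ok par f1 Box3.unit C0 :=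
  (Ok.part 15914343565112267840454108423255633003533265285953853748594827800209408374016581291730927 p0_1_0 p0_1_1)
theorem o0_0 : Ok par f0 Box3.unit C0 :=
  (Ok.part 15913334287915251333142796967131415944743532916917528136546033971024482957543003750662143 p0_0_6 (Ok.split 0 p0_0_5 (Ok.part 8857665685962246 p0_0_4 (Ok.split 1 p0_0_3 (Ok.part 32768 p0_0_2 (Ok.split 0 p0_0_0 p0_0_1))))))

theorem pt0 : PtAll par C0 :=
  PtAll.of_okD hw (OkD.cover [f0.dom,f1.dom,f2.dom,f3.dom,f4.dom,f5.dom,f6.dom,f7.dom,f8.dom]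
    (.split 0 (.split 0 (.leaf 0) (.split 1 (.leaf 1) (.split 0 (.leaf 2) (.leaf 3)))) (.split 1 (.split 0 (.leaf 4) (.leaf 5)) (.split 0 (.leaf 6) (.split 1 (.leaf 7) (.leaf 8)))))
    (by decide +kernel)
    (List.forall_mem_cons.2 ⟨OkD.of_ok o0_0, (List.forall_mem_cons.2 ⟨OkD.of_ok o0_1, (List.forall_mem_cons.2 ⟨OkD.of_ok o0_2, (List.forall_mem_cons.2 ⟨OkD.of_ok o0_3, (List.forall_mem_cons.2 ⟨OkD.of_ok o0_4, (List.forall_mem_cons.2 ⟨OkD.of_ok o0_5, (List.forall_mem_cons.2 ⟨OkD.of_ok o0_6, (List.forall_mem_cons.2 ⟨OkD.of_ok o0_7, (List.forall_mem_cons.2 ⟨OkD.of_ok o0_8, (fun _ h => nomatch h)⟩)⟩)⟩)⟩)⟩)⟩)⟩)⟩)⟩))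

end Crest.Agent.R163.S2
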