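import Crest.Agent.R163.Q3.D.S2.S1
import Crest.Agent.R163.Q3.D.S2.H

set_option autoImplicit false
set_option maxRecDepth 100000
set_option linter.all false
set_option Elab.async false

namespace Crest.Agent.R163.S2

theorem p1_5_11 : Ok par f5 ((((Box3.unit.r 1).r 1).r 0).r 1) (selB 0 (selB 0 (selB 0 (selB 0 C1 463168674591356954098168209642892740566244212869183588808254027436312789778299) 75165870414897753358363) 53827022754922111018) 17312994487157190) :=
  Ok.run hw hf5 ⟨578,25,25,1,10⟩ 59
    (.part 265261499 (.chk false 0) (.split 0 (.part 260 (.chk false 0) (.split 1 (.part 126 (.chk false 0) (.split 0 (.chk false 0) (.chk false 0))) (.part 89 (.chk false 0) (.split 0 (.part 1 (.chk false 0) (.split 1 (.part 1 (.chk false 0) (.split 0 (.split 1 (.chk false 0) (.split 0 (.split 1 (.split 0 (.chk false 0) (.chk false 0)) (.split 0 (.chk false 0) (.chk false 0))) (.chk false 0))) (.chk false 0))) (.part 2 (.chk false 0) (.split 0 (.chk false 0) (.chk false 0))))) (.chk false 0))))) (.chk false 0)))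
    (by decide +kernel)

theorem p1_5_12 : Ok par f5 (((Box3.unit.r 1).r 1).r 0) (selB 1 (selB 0 (selB 0 (selB 0 C1 463168674591356954098168209642892740566244212869183588808254027436312789778299) 75165870414897753358363) 53827022754922111018) 17312994487157190) :=
  Ok.run hw hf5 ⟨347,25,25,1,10⟩ 59
    (.chk false 0)
    (by decide +kernel)

theorem p1_5_13 : Ok par f5 ((Box3.unit.r 1).r 1) (selB 1 (selB 0 (selB 0 C1 463168674591356954098168209642892740566244212869183588808254027436312789778299) 75165870414897753358363) 53827022754922111018) :=
  Ok.run hw hf5 ⟨309,25,25,1,10⟩ 59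
    (.chk false 0)
    (by decide +kernel)

theorem p1_5_14 : Ok par f5 ((Box3.unit.r 1).l 1) (selB 0 (selB 0 C1 463168674591356954098168209642892740566244212869183588808254027436312789778299) 75165870414897753358363) :=
  Ok.run hw hf5 ⟨458,25,25,1,10⟩ 59
    (.part 432345564227567595 (.chk false 0) (.split 0 (.part 38 (.chk false 0) (.split 1 (.chk false 0) (.part 74 (.chk false 0) (.split 0 (.part 13 (.chk false 0) (.split 1 (.chk false 0) (.split 0 (.chk false 0) (.chk false 0)))) (.part 7 (.chk false 0) (.split 1 (.chk false 0) (.chk false 0))))))) (.part 151 (.chk false 0) (.split 1 (.chk false 0) (.part 5 (.chk false 0) (.split 1 (.part 3 (.chk false 0) (.split 0 (.split 1 (.chk false 0) (.split 0 (.chk false 0) (.chk false 0))) (.chk false 0))) (.part 5 (.chk false 0) (.split 0 (.split 1 (.chk false 0) (.split 0 (.chk false 0) (.chk false 0))) (.chk false 0)))))))))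
    (by decide +kernel)

theorem p1_5_15 : Ok par f5 (Box3.unit.r 1) (selB 1 (selB 0 C1 463168674591356954098168209642892740566244212869183588808254027436312789778299) 75165870414897753358363) :=
  Ok.run hw hf5 ⟨280,25,25,1,10⟩ 59
    (.chk false 0)
    (by decide +kernel)

theorem p1_5_16 : Ok par f5 Box3.unit (selB 1 C1 463168674591356954098168209642892740566244212869183588808254027436312789778299) :=
  Ok.run hw hf5 ⟨242,25,25,1,10⟩ 59
    (.chk false 0)
    (by decide +kernel)

theorem p1_6_0 : Ok par f6 Box3.unit (selB 1 C1 463246084605546006258820338367168883610382171433949996952759738677699186524159) :=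
  Ok.run hw hf6 ⟨241,25,25,1,10⟩ 59
    (.chk false 0)
    (by decide +kernel)

theorem p1_6_1 : Ok par f6 Box3.unit (selB 0 C1 463246084605546006258820338367168883610382171433949996952759738677699186524159) :=
  Ok.run hw hf6 ⟨479,25,25,1,10⟩ 59
    (.split 1 (.chk false 0) (.split 0 (.part 1073676287 (.chk false 0) (.split 1 (.chk false 0) (.split 0 (.chk false 0) (.chk false 0)))) (.part 134158861 (.chk false 0) (.split 1 (.chk false 0) (.split 0 (.part 4095 (.chk false 0) (.split 1 (.chk false 0) (.split 0 (.split 1 (.chk false 0) (.split 0 (.chk false 0) (.chk false 0))) (.chk false 0)))) (.part 8175 (.chk false 0) (.split 1 (.chk false 0) (.split 0 (.chk false 0) (.split 1 (.chk false 0) (.split 0 (.chk false 0) (.chk false 0)))))))))))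
    (by decide +kernel)

theorem p1_7_0 : Ok par f7 (((Box3.unit.l 1).l 0).l 1) (selB 0 (selB 0 (selB 0 C1 926336713898511848604023068126867225503772146569390822312397763680667915780614) 22344301341496513168379390676345256258192265) 162226343544154912527546815113060881644126207) :=
  Ok.run hw hf7 ⟨476,25,25,1,10⟩ 59
    (.part 196001985986559 (.chk false 0) (.split 0 (.chk false 0) (.part 3678752 (.chk false 0) (.split 1 (.part 4095 (.chk false 0) (.split 0 (.chk false 0) (.part 6 (.chk false 0) (.split 1 (.part 2 (.chk false 0) (.split 0 (.chk false 0) (.chk false 0))) (.chk false 0))))) (.part 64003 (.chk false 0) (.split 0 (.chk false 0) (.part 70 (.chk false 0) (.split 1 (.part 15 (.chk false 0) (.split 0 (.chk false 0) (.chk false 0))) (.part 20 (.chk false 0) (.split 0 (.chk false 0) (.part 6 (.chk false 0) (.split 1 (.chk false 0) (.chk false 0)))))))))))))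
    (by decide +kernel)

theorem p1_7_1 : Ok par f7 (((Box3.unit.l 1).l 0).r 1) (selB 0 (selB 0 (selB 0 C1 926336713898511848604023068126867225503772146569390822312397763680667915780614) 22344301341496513168379390676345256258192265) 162226343544154912527546815113060881644126207) :=
  Ok.run hw hf7 ⟨452,25,25,1,10⟩ 59
    (.part 9007147445450495 (.chk false 0) (.split 0 (.chk false 0) (.part 354 (.chk false 0) (.split 1 (.part 5 (.chk false 0) (.split 0 (.chk false 0) (.part 4 (.chk false 0) (.split 1 (.part 1 (.chk false 0) (.split 0 (.chk false 0) (.chk false 0))) (.chk false 0))))) (.chk false 0)))))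
    (by decide +kernel)

theorem p1_7_2 : Ok par f7 ((Box3.unit.l 1).l 0) (selB 1 (selB 0 (selB 0 C1 926336713898511848604023068126867225503772146569390822312397763680667915780614) 22344301341496513168379390676345256258192265) 162226343544154912527546815113060881644126207) :=
  Ok.run hw hf7 ⟨318,25,25,1,10⟩ 59
    (.chk false 0)
    (by decide +kernel)

theorem p1_7_3 : Ok par f7 ((((Box3.unit.l 1).r 0).l 1).l 0) (selB 0 (selB 0 (selB 0 (selB 0 C1 926336713898511848604023068126867225503772146569390822312397763680667915780614) 22344301341496513168379390676345256258192265) 177653930911560717956254888426112310484960258) 765039443832224428477737074687) :=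
  Ok.run hw hf7 ⟨500,25,25,1,10⟩ 59
    (.part 519 (.chk false 0) (.split 1 (.part 2719 (.chk false 0) (.split 0 (.part 3 (.chk false 0) (.split 1 (.part 1 (.chk false 0) (.split 0 (.split 1 (.chk false 0) (.chk false 0)) (.chk false 0))) (.chk false 0))) (.part 14 (.chk false 0) (.split 1 (.chk false 0) (.chk false 0))))) (.part 4000 (.chk false 0) (.split 0 (.part 37 (.chk false 0) (.split 1 (.chk false 0) (.part 1 (.chk false 0) (.split 0 (.split 1 (.chk false 0) (.part 1 (.chk false 0) (.split 0 (.chk false 0) (.chk false 0)))) (.chk false 0))))) (.part 61 (.chk false 0) (.split 1 (.split 0 (.split 1 (.chk false 0) (.chk false 0)) (.chk false 0)) (.chk false 0)))))))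
    (by decide +kernel)

theorem p1_7_4 : Ok par f7 ((((Box3.unit.l 1).r 0).l 1).r 0) (selB 0 (selB 0 (selB 0 (selB 0 C1 926336713898511848604023068126867225503772146569390822312397763680667915780614) 22344301341496513168379390676345256258192265) 177653930911560717956254888426112310484960258) 765039443832224428477737074687) :=
  Ok.run hw hf7 ⟨403,25,25,1,10⟩ 59
    (.part 65534 (.chk false 0) (.split 1 (.chk false 0) (.chk false 0)))
    (by decide +kernel)

theorem p1_7_5 : Ok par f7 (((Box3.unit.l 1).r 0).l 1) (selB 1 (selB 0 (selB 0 (selB 0 C1 926336713898511848604023068126867225503772146569390822312397763680667915780614) 22344301341496513168379390676345256258192265) 177653930911560717956254888426112310484960258) 765039443832224428477737074687) :=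
  Ok.run hw hf7 ⟨347,25,25,1,10⟩ 59
    (.chk false 0)
    (by decide +kernel)

theorem p1_7_6 : Ok par f7 (((((Box3.unit.l 1).r 0).r 1).l 0).l 1) (selB 0 (selB 0 (selB 0 (selB 0 (selB 0 C1 926336713898511848604023068126867225503772146569390822312397763680667915780614) 22344301341496513168379390676345256258192265) 177653930911560717956254888426112310484960258) 2535301041567789951722294607874) 11892730085046781) :=
  Ok.run hw hf7 ⟨521,25,25,1,10⟩ 59
    (.part 12499025919 (.chk false 0) (.split 0 (.part 282 (.chk false 0) (.split 1 (.part 23 (.chk false 0) (.split 0 (.split 1 (.chk false 0) (.split 0 (.chk false 0) (.split 1 (.chk false 0) (.chk false 0)))) (.chk false 0))) (.part 29 (.chk false 0) (.split 0 (.chk false 0) (.chk false 0))))) (.chk false 0)))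
    (by decide +kernel)

theorem p1_7_7 : Ok par f7 (((((Box3.unit.l 1).r 0).r 1).l 0).r 1) (selB 0 (selB 0 (selB 0 (selB 0 (selB 0 C1 926336713898511848604023068126867225503772146569390822312397763680667915780614) 22344301341496513168379390676345256258192265) 177653930911560717956254888426112310484960258) 2535301041567789951722294607874) 11892730085046781) :=
  Ok.run hw hf7 ⟨499,25,25,1,10⟩ 59
    (.part 273969447232 (.chk false 0) (.split 0 (.part 257791 (.chk false 0) (.split 1 (.part 3 (.chk false 0) (.split 0 (.part 2 (.chk false 0) (.split 1 (.part 2 (.chk false 0) (.split 0 (.chk false 0) (.chk false 0))) (.chk false 0))) (.chk false 0))) (.chk false 0))) (.part 2072003 (.chk false 0) (.split 1 (.part 15 (.chk false 0) (.split 0 (.part 1 (.chk false 0) (.split 1 (.part 1 (.chk false 0) (.split 0 (.chk false 0) (.chk false 0))) (.part 2 (.chk false 0) (.split 0 (.chk false 0) (.chk false 0))))) (.chk false 0))) (.part 112 (.chk false 0) (.split 0 (.part 13 (.chk false 0) (.split 1 (.chk false 0) (.chk false 0))) (.chk false 0)))))))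
    (by decide +kernel)

theorem p1_7_8 : Ok par f7 ((((Box3.unit.l 1).r 0).r 1).l 0) (selB 1 (selB 0 (selB 0 (selB 0 (selB 0 C1 926336713898511848604023068126867225503772146569390822312397763680667915780614) 22344301341496513168379390676345256258192265) 177653930911560717956254888426112310484960258) 2535301041567789951722294607874) 11892730085046781) :=
  Ok.run hw hf7 ⟨353,25,25,1,10⟩ 59
    (.chk false 0)
    (by decide +kernel)

theorem p1_7_9 : Ok par f7 ((((Box3.unit.l 1).r 0).r 1).r 0) (selB 0 (selB 0 (selB 0 (selB 0 C1 926336713898511848604023068126867225503772146569390822312397763680667915780614) 22344301341496513168379390676345256258192265) 177653930911560717956254888426112310484960258) 2535301041567789951722294607874) :=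
  Ok.run hw hf7 ⟨392,25,25,1,10⟩ 59
    (.part 288230374004223991 (.chk false 0) (.split 1 (.chk false 0) (.chk false 0)))
    (by decide +kernel)

theorem p1_7_10 : Ok par f7 (((Box3.unit.l 1).r 0).r 1) (selB 1 (selB 0 (selB 0 (selB 0 C1 926336713898511848604023068126867225503772146569390822312397763680667915780614) 22344301341496513168379390676345256258192265) 177653930911560717956254888426112310484960258) 2535301041567789951722294607874) :=
  Ok.run hw hf7 ⟨336,25,25,1,10⟩ 59
    (.chk false 0)
    (by decide +kernel)

theorem p1_7_11 : Ok par f7 ((Box3.unit.l 1).r 0) (selB 1 (selB 0 (selB 0 C1 926336713898511848604023068126867225503772146569390822312397763680667915780614) 22344301341496513168379390676345256258192265) 177653930911560717956254888426112310484960258) :=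
  Ok.run hw hf7 ⟨318,25,25,1,10⟩ 59
    (.chk false 0)
    (by decide +kernel)

theorem p1_7_12 : Ok par f7 (Box3.unit.l 1) (selB 1 (selB 0 C1 926336713898511848604023068126867225503772146569390822312397763680667915780614) 22344301341496513168379390676345256258192265) :=
  Ok.run hw hf7 ⟨280,25,25,1,10⟩ 59
    (.chk false 0)
    (by decide +kernel)

theorem p1_7_13 : Ok par f7 ((Box3.unit.r 1).l 0) (selB 0 (selB 0 C1 926336713898511848604023068126867225503772146569390822312397763680667915780614) 93536104789177059843475587222320806277107310134153) :=
  Ok.run hw hf7 ⟨318,25,25,1,10⟩ 59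
    (.chk false 0)
    (by decide +kernel)

theorem p1_7_14 : Ok par f7 ((Box3.unit.r 1).r 0) (selB 0 (selB 0 C1 926336713898511848604023068126867225503772146569390822312397763680667915780614) 93536104789177059843475587222320806277107310134153) :=
  Ok.run hw hf7 ⟨518,25,25,1,10⟩ 59
    (.part 144115112301821988 (.chk false 0) (.split 1 (.part 1024 (.chk false 0) (.split 0 (.part 16288625 (.chk false 0) (.split 1 (.part 24 (.chk false 0) (.split 0 (.part 495 (.chk false 0) (.split 1 (.chk false 0) (.chk false 0))) (.part 493 (.chk false 0) (.split 1 (.part 2 (.chk false 0) (.split 0 (.split 1 (.split 0 (.chk false 0) (.split 1 (.chk false 0) (.chk false 0))) (.chk false 0)) (.chk false 0))) (.chk false 0))))) (.chk false 0))) (.chk false 0))) (.chk false 0)))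
    (by decide +kernel)

theorem p1_7_15 : Ok par f7 (Box3.unit.r 1) (selB 1 (selB 0 C1 926336713898511848604023068126867225503772146569390822312397763680667915780614) 93536104789177059843475587222320806277107310134153) :=
  Ok.run hw hf7 ⟨280,25,25,1,10⟩ 59
    (.chk false 0)
    (by decide +kernel)

theorem p1_7_16 : Ok par f7 Box3.unit (selB 1 C1 926336713898511848604023068126867225503772146569390822312397763680667915780614) :=
  Ok.run hw hf7 ⟨242,25,25,1,10⟩ 59
    (.chk false 0)
    (by decide +kernel)

theorem p1_8_0 : Ok par f8 ((Box3.unit.l 0).l 1) (selB 0 (selB 0 C1 926336713898529563313437308627219716942298302061770376457361052734344047106562) 140083455711249957520923889652363327181005107) :=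
  Ok.run hw hf8 ⟨318,25,25,1,10⟩ 59
    (.chk false 0)
    (by decide +kernel)

theorem p1_8_1 : Ok par f8 ((Box3.unit.l 0).r 1) (selB 0 (selB 0 C1 926336713898529563313437308627219716942298302061770376457361052734344047106562) 140083455711249957520923889652363327181005107) :=
  Ok.run hw hf8 ⟨444,25,25,1,10⟩ 59
    (.part 2475928482827213262197096448 (.chk false 0) (.split 0 (.part 154364088402744456620539903 (.chk false 0) (.split 1 (.chk false 0) (.split 0 (.chk false 0) (.chk false 0)))) (.part 154742429394208420919789561 (.chk false 0) (.split 1 (.chk false 0) (.part 2622464 (.chk false 0) (.split 0 (.part 784383 (.chk false 0) (.split 1 (.chk false 0) (.part 4 (.chk false 0) (.split 0 (.chk false 0) (.chk false 0))))) (.part 2097143 (.chk false 0) (.split 1 (.chk false 0) (.split 0 (.chk false 0) (.chk false 0))))))))))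
    (by decide +kernel)

theorem p1_8_2 : Ok par f8 (Box3.unit.l 0) (selB 1 (selB 0 C1 926336713898529563313437308627219716942298302061770376457361052734344047106562) 140083455711249957520923889652363327181005107) :=
  Ok.run hw hf8 ⟨280,25,25,1,10⟩ 59
    (.chk false 0)
    (by decide +kernel)


end Crest.Agent.R163.S2
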