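import Crest.Agent.R163.Q3.D.S2.P1_0
import Crest.Agent.R163.Q3.D.S2.P1_1
import Crest.Agent.R163.Q3.D.S2.P1_2

set_option autoImplicit false
set_option maxRecDepth 100000
set_option linter.all false
set_option Elab.async false

namespace Crest.Agent.R163.S2

theorem o1_8 : Ok par f8 Box3.unit C1 :=
  (Ok.part 926336713898529563313437308627219716942298302061770376457361052734344047106562 p1_8_4 (Ok.split 0 (Ok.part 140083455711249957520923889652363327181005107 p1_8_2 (Ok.split 1 p1_8_0 p1_8_1)) p1_8_3))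
theorem o1_7 : Ok par f7 Box3.unit C1 :=
  (Ok.part 926336713898511848604023068126867225503772146569390822312397763680667915780614 p1_7_16 (Ok.split 1 (Ok.part 22344301341496513168379390676345256258192265 p1_7_12 (Ok.split 0 (Ok.part 162226343544154912527546815113060881644126207 p1_7_2 (Ok.split 1 p1_7_0 p1_7_1)) (Ok.part 177653930911560717956254888426112310484960258 p1_7_11 (Ok.split 1 (Ok.part 765039443832224428477737074687 p1_7_5 (Ok.split 0 p1_7_3 p1_7_4)) (Ok.part 2535301041567789951722294607874 p1_7_10 (Ok.split 0 (Ok.part 11892730085046781 p1_7_8 (Ok.split 1 p1_7_6 p1_7_7)) p1_7_9)))))) (Ok.part 93536104789177059843475587222320806277107310134153 p1_7_15 (Ok.split 0 p1_7_13 p1_7_14))))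
theorem o1_6 : Ok par f6 Box3.unit C1 :=
  (Ok.part 463246084605546006258820338367168883610382171433949996952759738677699186524159 p1_6_0 p1_6_1)
theorem o1_5 : Ok par f5 Box3.unit C1 :=
  (Ok.part 463168674591356954098168209642892740566244212869183588808254027436312789778299 p1_5_16 (Ok.split 1 (Ok.part 9596245298188703829589988 p1_5_2 (Ok.split 1 p1_5_0 p1_5_1)) (Ok.part 75165870414897753358363 p1_5_15 (Ok.split 1 p1_5_14 (Ok.part 53827022754922111018 p1_5_13 (Ok.split 0 (Ok.part 15762756586045389 p1_5_9 (Ok.split 1 p1_5_8 (Ok.part 3188999 p1_5_7 (Ok.split 0 p1_5_6 (Ok.part 24613 p1_5_5 (Ok.split 1 p1_5_3 p1_5_4)))))) (Ok.part 17312994487157190 p1_5_12 (Ok.split 1 p1_5_10 p1_5_11))))))))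
theorem o1_4 : Ok par f4 Box3.unit C1 :=
  (Ok.part 922682432456801669998907033450187611732361486043829415138231400954370813755015 p1_4_2 (Ok.split 1 p1_4_0 p1_4_1))
theorem o1_3 : Ok par f3 Box3.unit C1 :=
  p1_3_0
theorem o1_2 : Ok par f2 Box3.unit C1 :=
  (Ok.part 926336713871569616645011632566093940643041923276156064346084448924408086142567 p1_2_6 (Ok.split 0 p1_2_5 (Ok.part 5187226216390339468485836169806848 p1_2_4 (Ok.split 1 p1_2_3 (Ok.part 32686625267909120 p1_2_2 (Ok.split 0 p1_2_0 p1_2_1))))))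
theorem o1_1 : Ok par f1 Box3.unit C1 :=
  (Ok.part 926336713898529563387488138093231974073696677602412614070647767467461518032895 p1_1_0 p1_1_1)
theorem o1_0 : Ok par f0 Box3.unit C1 :=
  (Ok.part 563807952144268872038317376765438506125627339303259542676926038746511928459263 p1_0_2 (Ok.split 0 p1_0_0 p1_0_1))

theorem pt1 : PtAll par C1 :=
  PtAll.of_okD hw (OkD.cover [f0.dom,f1.dom,f2.dom,f3.dom,f4.dom,f5.dom,f6.dom,f7.dom,f8.dom]
    (.split 0 (.split 0 (.leaf 0) (.split 1 (.leaf 1) (.split 0 (.leaf 2) (.leaf 3)))) (.split 1 (.split 0 (.leaf 4) (.leaf 5)) (.split 0 (.leaf 6) (.split 1 (.leaf 7) (.leaf 8)))))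
    (by decide +kernel)
    (List.forall_mem_cons.2 ⟨OkD.of_ok o1_0, (List.forall_mem_cons.2 ⟨OkD.of_ok o1_1, (List.forall_mem_cons.2 ⟨OkD.of_ok o1_2, (List.forall_mem_cons.2 ⟨OkD.of_ok o1_3, (List.forall_mem_cons.2 ⟨OkD.of_ok o1_4, (List.forall_mem_cons.2 ⟨OkD.of_ok o1_5, (List.forall_mem_cons.2 ⟨OkD.of_ok o1_6, (List.forall_mem_cons.2 ⟨OkD.of_ok o1_7, (List.forall_mem_cons.2 ⟨OkD.of_ok o1_8, (fun _ h => nomatch h)⟩)⟩)⟩)⟩)⟩)⟩)⟩)⟩)⟩))

end Crest.Agent.R163.S2
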