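import Crest.Agent.R163.Q3.D.S2.S0
import Crest.Agent.R163.Q3.D.S2.H

set_option autoImplicit false
set_option maxRecDepth 100000
set_option linter.all false
set_option Elab.async false

namespace Crest.Agent.R163.S2

theorem p0_0_0 : Ok par f0 (((Box3.unit.r 0).r 1).l 0) (selB 0 (selB 0 (selB 0 C0 15913334287915251333142796967131415944743532916917528136546033971024482957543003750662143) 8857665685962246) 32768) :=
  Ok.run hw hf0 ⟨443,25,25,1,10⟩ 59
    (.part 34274262847 (.chk false 0) (.split 1 (.chk false 0) (.split 0 (.part 125 (.chk false 0) (.split 1 (.chk false 0) (.split 0 (.chk false 0) (.chk false 0)))) (.part 23 (.chk false 0) (.split 1 (.chk false 0) (.split 0 (.chk false 0) (.chk false 0)))))))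
    (by decide +kernel)

theorem p0_0_1 : Ok par f0 (((Box3.unit.r 0).r 1).r 0) (selB 0 (selB 0 (selB 0 C0 15913334287915251333142796967131415944743532916917528136546033971024482957543003750662143) 8857665685962246) 32768) :=
  Ok.run hw hf0 ⟨525,25,25,1,10⟩ 59
    (.part 30158635233 (.chk false 0) (.split 1 (.chk false 0) (.split 0 (.part 4182015 (.chk false 0) (.split 1 (.chk false 0) (.split 1 (.chk false 0) (.split 0 (.chk false 0) (.part 1 (.chk false 0) (.split 1 (.chk false 0) (.split 0 (.chk false 0) (.chk false 0)))))))) (.part 275215 (.chk false 0) (.split 1 (.chk false 0) (.split 0 (.part 8187 (.chk false 0) (.split 1 (.chk false 0) (.split 1 (.chk false 0) (.split 0 (.chk false 0) (.chk false 0))))) (.part 6069 (.chk false 0) (.split 1 (.chk false 0) (.part 4 (.chk false 0) (.split 0 (.chk false 0) (.chk false 0)))))))))))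
    (by decide +kernel)

theorem p0_0_2 : Ok par f0 ((Box3.unit.r 0).r 1) (selB 1 (selB 0 (selB 0 C0 15913334287915251333142796967131415944743532916917528136546033971024482957543003750662143) 8857665685962246) 32768) :=
  Ok.run hw hf0 ⟨317,25,25,1,10⟩ 59
    (.chk false 0)
    (by decide +kernel)

theorem p0_0_3 : Ok par f0 ((Box3.unit.r 0).l 1) (selB 0 (selB 0 C0 15913334287915251333142796967131415944743532916917528136546033971024482957543003750662143) 8857665685962246) :=
  Ok.run hw hf0 ⟨317,25,25,1,10⟩ 59
    (.chk false 0)
    (by decide +kernel)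

theorem p0_0_4 : Ok par f0 (Box3.unit.r 0) (selB 1 (selB 0 C0 15913334287915251333142796967131415944743532916917528136546033971024482957543003750662143) 8857665685962246) :=
  Ok.run hw hf0 ⟨279,25,25,1,10⟩ 59
    (.chk false 0)
    (by decide +kernel)

theorem p0_0_5 : Ok par f0 (Box3.unit.l 0) (selB 0 C0 15913334287915251333142796967131415944743532916917528136546033971024482957543003750662143) :=
  Ok.run hw hf0 ⟨481,25,25,1,10⟩ 59
    (.part 15727414294331899 (.chk false 0) (.split 0 (.part 2045 (.chk false 0) (.split 0 (.chk false 0) (.chk false 0))) (.part 1538 (.chk false 0) (.split 1 (.chk false 0) (.split 0 (.part 239 (.chk false 0) (.split 1 (.chk false 0) (.split 0 (.chk false 0) (.chk false 0)))) (.part 63 (.chk false 0) (.split 1 (.chk false 0) (.split 0 (.chk false 0) (.part 1 (.chk false 0) (.split 1 (.chk false 0) (.split 0 (.chk false 0) (.split 1 (.chk false 0) (.chk false 0)))))))))))))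
    (by decide +kernel)

theorem p0_0_6 : Ok par f0 Box3.unit (selB 1 C0 15913334287915251333142796967131415944743532916917528136546033971024482957543003750662143) :=
  Ok.run hw hf0 ⟨241,25,25,1,10⟩ 59
    (.chk false 0)
    (by decide +kernel)

theorem p0_1_0 : Ok par f1 Box3.unit (selB 1 C0 15914343565112267840454108423255633003533265285953853748594827800209408374016581291730927) :=
  Ok.run hw hf1 ⟨241,25,25,1,10⟩ 59
    (.chk false 0)
    (by decide +kernel)

theorem p0_1_1 : Ok par f1 Box3.unit (selB 0 C0 15914343565112267840454108423255633003533265285953853748594827800209408374016581291730927) :=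
  Ok.run hw hf1 ⟨417,25,25,1,10⟩ 59
    (.split 0 (.part 2093309 (.chk false 0) (.split 0 (.part 17 (.chk false 0) (.split 0 (.chk false 0) (.split 1 (.part 5 (.chk false 0) (.split 0 (.chk false 0) (.chk false 0))) (.chk false 0)))) (.part 30 (.chk false 0) (.split 1 (.split 0 (.chk false 0) (.chk false 0)) (.chk false 0))))) (.part 1793823 (.chk false 0) (.split 0 (.part 57 (.chk false 0) (.split 0 (.chk false 0) (.part 1 (.chk false 0) (.split 1 (.split 1 (.split 0 (.chk false 0) (.chk false 0)) (.chk false 0)) (.chk false 0))))) (.part 62 (.chk false 0) (.split 1 (.split 0 (.chk false 0) (.chk false 0)) (.chk false 0))))))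
    (by decide +kernel)

theorem p0_2_0 : Ok par f2 (Box3.unit.l 0) (selB 1 (selB 0 C0 13945503137375006708129590303934342701314677516492004681972029595078258880536761686032375) 170141183460469222286954318190689275903) :=
  Ok.run hw hf2 ⟨279,25,25,1,10⟩ 59
    (.chk false 0)
    (by decide +kernel)

theorem p0_2_1 : Ok par f2 (Box3.unit.l 0) (selB 0 (selB 0 C0 13945503137375006708129590303934342701314677516492004681972029595078258880536761686032375) 170141183460469222286954318190689275903) :=
  Ok.run hw hf2 ⟨478,25,25,1,10⟩ 59
    (.split 1 (.chk false 0) (.part 8496 (.chk false 0) (.split 0 (.part 203957 (.chk false 0) (.split 1 (.chk false 0) (.split 0 (.part 242 (.chk false 0) (.split 1 (.chk false 0) (.split 0 (.part 4 (.chk false 0) (.split 1 (.chk false 0) (.chk false 0))) (.chk false 0)))) (.chk false 0)))) (.part 123759 (.chk false 0) (.split 1 (.chk false 0) (.split 0 (.part 59 (.chk false 0) (.split 1 (.chk false 0) (.split 0 (.chk false 0) (.chk false 0)))) (.part 39 (.chk false 0) (.split 1 (.chk false 0) (.split 0 (.chk false 0) (.chk false 0))))))))))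
    (by decide +kernel)

theorem p0_2_2 : Ok par f2 (((((Box3.unit.r 0).r 1).l 0).r 1).l 0) (selB 0 (selB 0 (selB 0 (selB 0 (selB 0 C0 13945503137375006708129590303934342701314677516492004681972029595078258880536761686032375) 10716254215254280031587304010041652220) 37778931862957161767941) 18856897579010024795143) 5072) :=
  Ok.run hw hf2 ⟨532,25,25,1,10⟩ 59
    (.part 29671 (.chk false 0) (.split 1 (.chk false 0) (.split 0 (.part 5 (.chk false 0) (.split 1 (.chk false 0) (.split 0 (.chk false 0) (.part 1 (.chk false 0) (.split 1 (.chk false 0) (.split 0 (.chk false 0) (.chk false 0))))))) (.chk false 0))))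
    (by decide +kernel)

theorem p0_2_3 : Ok par f2 (((((Box3.unit.r 0).r 1).l 0).r 1).r 0) (selB 0 (selB 0 (selB 0 (selB 0 (selB 0 C0 13945503137375006708129590303934342701314677516492004681972029595078258880536761686032375) 10716254215254280031587304010041652220) 37778931862957161767941) 18856897579010024795143) 5072) :=
  Ok.run hw hf2 ⟨566,25,25,1,10⟩ 59
    (.part 24058 (.chk false 0) (.split 1 (.chk false 0) (.part 8 (.chk false 0) (.split 1 (.chk false 0) (.split 0 (.part 3 (.chk false 0) (.split 0 (.chk false 0) (.split 1 (.chk false 0) (.chk false 0)))) (.part 5 (.chk false 0) (.split 1 (.chk false 0) (.split 0 (.chk false 0) (.split 1 (.chk false 0) (.split 0 (.chk false 0) (.chk false 0)))))))))))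
    (by decide +kernel)

theorem p0_2_4 : Ok par f2 ((((Box3.unit.r 0).r 1).l 0).r 1) (selB 1 (selB 0 (selB 0 (selB 0 (selB 0 C0 13945503137375006708129590303934342701314677516492004681972029595078258880536761686032375) 10716254215254280031587304010041652220) 37778931862957161767941) 18856897579010024795143) 5072) :=
  Ok.run hw hf2 ⟨364,25,25,1,10⟩ 59
    (.chk false 0)
    (by decide +kernel)

theorem p0_2_5 : Ok par f2 ((((Box3.unit.r 0).r 1).l 0).l 1) (selB 0 (selB 0 (selB 0 (selB 0 C0 13945503137375006708129590303934342701314677516492004681972029595078258880536761686032375) 10716254215254280031587304010041652220) 37778931862957161767941) 18856897579010024795143) :=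
  Ok.run hw hf2 ⟨352,25,25,1,10⟩ 59
    (.chk false 0)
    (by decide +kernel)

theorem p0_2_6 : Ok par f2 (((Box3.unit.r 0).r 1).l 0) (selB 1 (selB 0 (selB 0 (selB 0 C0 13945503137375006708129590303934342701314677516492004681972029595078258880536761686032375) 10716254215254280031587304010041652220) 37778931862957161767941) 18856897579010024795143) :=
  Ok.run hw hf2 ⟨334,25,25,1,10⟩ 59
    (.chk false 0)
    (by decide +kernel)

theorem p0_2_7 : Ok par f2 (((Box3.unit.r 0).r 1).r 0) (selB 0 (selB 0 (selB 0 C0 13945503137375006708129590303934342701314677516492004681972029595078258880536761686032375) 10716254215254280031587304010041652220) 37778931862957161767941) :=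
  Ok.run hw hf2 ⟨528,25,25,1,10⟩ 59
    (.part 5902669816171651709912 (.chk false 0) (.split 1 (.chk false 0) (.part 41 (.chk false 0) (.split 1 (.chk false 0) (.part 8200 (.chk false 0) (.split 0 (.part 4194287 (.chk false 0) (.split 0 (.chk false 0) (.chk false 0))) (.part 3948471 (.chk false 0) (.split 1 (.chk false 0) (.split 0 (.chk false 0) (.part 61 (.chk false 0) (.split 1 (.chk false 0) (.split 0 (.chk false 0) (.chk false 0)))))))))))))
    (by decide +kernel)

theorem p0_2_8 : Ok par f2 ((Box3.unit.r 0).r 1) (selB 1 (selB 0 (selB 0 C0 13945503137375006708129590303934342701314677516492004681972029595078258880536761686032375) 10716254215254280031587304010041652220) 37778931862957161767941) :=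
  Ok.run hw hf2 ⟨317,25,25,1,10⟩ 59
    (.chk false 0)
    (by decide +kernel)

theorem p0_2_9 : Ok par f2 ((Box3.unit.r 0).l 1) (selB 0 (selB 0 C0 13945503137375006708129590303934342701314677516492004681972029595078258880536761686032375) 10716254215254280031587304010041652220) :=
  Ok.run hw hf2 ⟨317,25,25,1,10⟩ 59
    (.chk false 0)
    (by decide +kernel)

theorem p0_2_10 : Ok par f2 (Box3.unit.r 0) (selB 1 (selB 0 C0 13945503137375006708129590303934342701314677516492004681972029595078258880536761686032375) 10716254215254280031587304010041652220) :=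
  Ok.run hw hf2 ⟨279,25,25,1,10⟩ 59
    (.chk false 0)
    (by decide +kernel)

theorem p0_2_11 : Ok par f2 Box3.unit (selB 1 C0 13945503137375006708129590303934342701314677516492004681972029595078258880536761686032375) :=
  Ok.run hw hf2 ⟨241,25,25,1,10⟩ 59
    (.chk false 0)
    (by decide +kernel)

theorem p0_3_0 : Ok par f3 Box3.unit (selB 1 C0 13925050619470407477561786459270537213914533606007919782434783177552272816167772076638207) :=
  Ok.run hw hf3 ⟨241,25,25,1,10⟩ 59
    (.chk false 0)
    (by decide +kernel)

theorem p0_3_1 : Ok par f3 Box3.unit (selB 0 C0 13925050619470407477561786459270537213914533606007919782434783177552272816167772076638207) :=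
  Ok.run hw hf3 ⟨501,25,25,1,10⟩ 59
    (.split 1 (.chk false 0) (.part 9474 (.chk false 0) (.split 0 (.part 3092 (.chk false 0) (.split 1 (.chk false 0) (.part 2 (.chk false 0) (.split 0 (.part 37 (.chk false 0) (.split 1 (.chk false 0) (.split 0 (.part 16 (.chk false 0) (.split 1 (.chk false 0) (.part 6 (.chk false 0) (.split 0 (.chk false 0) (.part 2 (.chk false 0) (.split 1 (.chk false 0) (.chk false 0))))))) (.chk false 0)))) (.chk false 0))))) (.chk false 0))))
    (by decide +kernel)

theorem p0_4_0 : Ok par f4 Box3.unit (selB 1 C0 15873547518375584124695981357131882247726873650268388135667300826801313670854129049665279) :=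
  Ok.run hw hf4 ⟨241,25,25,1,10⟩ 59
    (.chk false 0)
    (by decide +kernel)

theorem p0_4_1 : Ok par f4 Box3.unit (selB 0 C0 15873547518375584124695981357131882247726873650268388135667300826801313670854129049665279) :=
  Ok.run hw hf4 ⟨449,25,25,1,10⟩ 59
    (.split 0 (.part 32771 (.chk false 0) (.split 1 (.split 0 (.part 62488063 (.chk false 0) (.split 1 (.split 0 (.chk false 0) (.part 29 (.chk false 0) (.split 1 (.split 0 (.chk false 0) (.chk false 0)) (.chk false 0)))) (.chk false 0))) (.part 56622895 (.chk false 0) (.split 1 (.split 0 (.chk false 0) (.chk false 0)) (.chk false 0)))) (.chk false 0))) (.part 536838143 (.chk false 0) (.split 1 (.split 1 (.split 0 (.chk false 0) (.split 1 (.split 0 (.chk false 0) (.chk false 0)) (.chk false 0))) (.chk false 0)) (.chk false 0))))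
    (by decide +kernel)

theorem p0_5_0 : Ok par f5 ((Box3.unit.r 1).l 0) (selB 0 (selB 0 C0 15914343266369582316696444456875961878530402545696733938936313263396040627270571460201855) 29578431) :=
  Ok.run hw hf5 ⟨433,25,25,1,10⟩ 59
    (.part 15356 (.chk false 0) (.split 1 (.part 3 (.chk false 0) (.split 0 (.chk false 0) (.chk false 0))) (.part 1 (.chk false 0) (.split 0 (.chk false 0) (.split 1 (.part 1 (.chk false 0) (.split 0 (.chk false 0) (.split 0 (.chk false 0) (.chk false 0)))) (.chk false 0))))))
    (by decide +kernel)


end Crest.Agent.R163.S2
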