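import Crest.Agent.R163.Q3.D.S2.S1
import Crest.Agent.R163.Q3.D.S2.H

set_option autoImplicit false
set_option maxRecDepth 100000
set_option linter.all false
set_option Elab.async false

namespace Crest.Agent.R163.S2

theorem p1_0_0 : Ok par f0 (Box3.unit.l 0) (selB 0 C1 563807952144268872038317376765438506125627339303259542676926038746511928459263) :=
  Ok.run hw hf0 ⟨334,25,25,1,10⟩ 59
    (.part 2237501867556863 (.chk false 0) (.split 0 (.part 11 (.chk false 0) (.split 0 (.chk false 0) (.chk false 0))) (.chk false 0)))
    (by decide +kernel)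

theorem p1_0_1 : Ok par f0 (Box3.unit.r 0) (selB 0 C1 563807952144268872038317376765438506125627339303259542676926038746511928459263) :=
  Ok.run hw hf0 ⟨453,25,25,1,10⟩ 59
    (.part 1072040899538863 (.chk false 0) (.split 1 (.chk false 0) (.split 0 (.part 2097147 (.chk false 0) (.split 1 (.chk false 0) (.split 0 (.part 5 (.chk false 0) (.split 1 (.chk false 0) (.split 0 (.chk false 0) (.chk false 0)))) (.chk false 0)))) (.part 7435263 (.chk false 0) (.split 1 (.chk false 0) (.part 4 (.chk false 0) (.split 0 (.chk false 0) (.part 29 (.chk false 0) (.split 1 (.chk false 0) (.split 0 (.chk false 0) (.chk false 0)))))))))))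
    (by decide +kernel)

theorem p1_0_2 : Ok par f0 Box3.unit (selB 1 C1 563807952144268872038317376765438506125627339303259542676926038746511928459263) :=
  Ok.run hw hf0 ⟨241,25,25,1,10⟩ 59
    (.chk false 0)
    (by decide +kernel)

theorem p1_1_0 : Ok par f1 Box3.unit (selB 1 C1 926336713898529563387488138093231974073696677602412614070647767467461518032895) :=
  Ok.run hw hf1 ⟨241,25,25,1,10⟩ 59
    (.chk false 0)
    (by decide +kernel)

theorem p1_1_1 : Ok par f1 Box3.unit (selB 0 C1 926336713898529563387488138093231974073696677602412614070647767467461518032895) :=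
  Ok.run hw hf1 ⟨419,25,25,1,10⟩ 59
    (.split 0 (.part 215539 (.chk false 0) (.split 0 (.chk false 0) (.part 6856 (.chk false 0) (.split 1 (.part 121 (.chk false 0) (.split 0 (.chk false 0) (.part 2 (.chk false 0) (.split 0 (.chk false 0) (.split 1 (.chk false 0) (.split 0 (.chk false 0) (.chk false 0))))))) (.part 71 (.chk false 0) (.split 0 (.chk false 0) (.chk false 0))))))) (.part 16760322 (.chk false 0) (.split 0 (.part 473 (.chk false 0) (.split 1 (.part 3 (.chk false 0) (.split 0 (.split 1 (.chk false 0) (.chk false 0)) (.chk false 0))) (.chk false 0))) (.chk false 0))))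
    (by decide +kernel)

theorem p1_2_0 : Ok par f2 (((Box3.unit.r 0).r 1).l 0) (selB 0 (selB 0 (selB 0 C1 926336713871569616645011632566093940643041923276156064346084448924408086142567) 5187226216390339468485836169806848) 32686625267909120) :=
  Ok.run hw hf2 ⟨565,25,25,1,10⟩ 59
    (.part 69265004691455 (.chk false 0) (.split 1 (.chk false 0) (.part 194 (.chk false 0) (.split 0 (.chk false 0) (.part 19 (.chk false 0) (.split 1 (.chk false 0) (.split 1 (.chk false 0) (.split 0 (.chk false 0) (.part 1 (.chk false 0) (.split 1 (.chk false 0) (.split 0 (.split 1 (.chk false 0) (.split 0 (.chk false 0) (.chk false 0))) (.chk false 0))))))))))))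
    (by decide +kernel)

theorem p1_2_1 : Ok par f2 (((Box3.unit.r 0).r 1).r 0) (selB 0 (selB 0 (selB 0 C1 926336713871569616645011632566093940643041923276156064346084448924408086142567) 5187226216390339468485836169806848) 32686625267909120) :=
  Ok.run hw hf2 ⟨478,25,25,1,10⟩ 59
    (.part 140737487889395 (.chk false 0) (.split 1 (.chk false 0) (.split 1 (.chk false 0) (.part 4 (.chk false 0) (.split 0 (.part 119 (.chk false 0) (.split 0 (.chk false 0) (.chk false 0))) (.part 31 (.chk false 0) (.split 1 (.chk false 0) (.part 1 (.chk false 0) (.split 0 (.chk false 0) (.chk false 0))))))))))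
    (by decide +kernel)

theorem p1_2_2 : Ok par f2 ((Box3.unit.r 0).r 1) (selB 1 (selB 0 (selB 0 C1 926336713871569616645011632566093940643041923276156064346084448924408086142567) 5187226216390339468485836169806848) 32686625267909120) :=
  Ok.run hw hf2 ⟨317,25,25,1,10⟩ 59
    (.chk false 0)
    (by decide +kernel)

theorem p1_2_3 : Ok par f2 ((Box3.unit.r 0).l 1) (selB 0 (selB 0 C1 926336713871569616645011632566093940643041923276156064346084448924408086142567) 5187226216390339468485836169806848) :=
  Ok.run hw hf2 ⟨346,25,25,1,10⟩ 59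
    (.part 18014398509481983 (.chk false 0) (.split 0 (.chk false 0) (.chk false 0)))
    (by decide +kernel)

theorem p1_2_4 : Ok par f2 (Box3.unit.r 0) (selB 1 (selB 0 C1 926336713871569616645011632566093940643041923276156064346084448924408086142567) 5187226216390339468485836169806848) :=
  Ok.run hw hf2 ⟨279,25,25,1,10⟩ 59
    (.chk false 0)
    (by decide +kernel)

theorem p1_2_5 : Ok par f2 (Box3.unit.l 0) (selB 0 C1 926336713871569616645011632566093940643041923276156064346084448924408086142567) :=
  Ok.run hw hf2 ⟨436,25,25,1,10⟩ 59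
    (.part 1876227112618662921844971448270847 (.chk false 0) (.split 1 (.chk false 0) (.part 3338668161 (.chk false 0) (.split 0 (.part 134217727 (.chk false 0) (.split 1 (.chk false 0) (.part 2 (.chk false 0) (.split 0 (.chk false 0) (.chk false 0))))) (.part 524052246 (.chk false 0) (.split 1 (.chk false 0) (.split 0 (.chk false 0) (.part 1734 (.chk false 0) (.split 1 (.chk false 0) (.part 41 (.chk false 0) (.split 0 (.chk false 0) (.chk false 0))))))))))))
    (by decide +kernel)

theorem p1_2_6 : Ok par f2 Box3.unit (selB 1 C1 926336713871569616645011632566093940643041923276156064346084448924408086142567) :=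
  Ok.run hw hf2 ⟨241,25,25,1,10⟩ 59
    (.chk false 0)
    (by decide +kernel)

theorem p1_3_0 : Ok par f3 Box3.unit C1 :=
  Ok.run hw hf3 ⟨375,25,25,1,10⟩ 59
    (.part 926336713898529563388567880069503262826159877325124512315660672063300473716506 (.chk false 0) (.split 1 (.chk false 0) (.part 18 (.chk false 0) (.split 0 (.part 23 (.chk false 0) (.split 1 (.chk false 0) (.split 0 (.chk false 0) (.chk false 0)))) (.chk false 0)))))
    (by decide +kernel)

theorem p1_4_0 : Ok par f4 (Box3.unit.l 1) (selB 0 C1 922682432456801669998907033450187611732361486043829415138231400954370813755015) :=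
  Ok.run hw hf4 ⟨503,25,25,1,10⟩ 59
    (.part 25165824 (.chk false 0) (.split 0 (.part 8333725 (.chk false 0) (.split 0 (.part 46 (.chk false 0) (.split 1 (.split 0 (.chk false 0) (.chk false 0)) (.chk false 0))) (.chk false 0))) (.part 3071715 (.chk false 0) (.split 1 (.part 128 (.chk false 0) (.split 0 (.chk false 0) (.part 123 (.chk false 0) (.split 1 (.split 1 (.split 0 (.chk false 0) (.split 1 (.split 0 (.chk false 0) (.chk false 0)) (.chk false 0))) (.chk false 0)) (.chk false 0))))) (.chk false 0)))))
    (by decide +kernel)

theorem p1_4_1 : Ok par f4 (Box3.unit.r 1) (selB 0 C1 922682432456801669998907033450187611732361486043829415138231400954370813755015) :=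
  Ok.run hw hf4 ⟨418,25,25,1,10⟩ 59
    (.part 31457279 (.chk false 0) (.split 0 (.split 1 (.split 0 (.split 0 (.split 1 (.chk false 0) (.chk false 0)) (.split 1 (.chk false 0) (.chk false 0))) (.chk false 0)) (.chk false 0)) (.chk false 0)))
    (by decide +kernel)

theorem p1_4_2 : Ok par f4 Box3.unit (selB 1 C1 922682432456801669998907033450187611732361486043829415138231400954370813755015) :=
  Ok.run hw hf4 ⟨241,25,25,1,10⟩ 59
    (.chk false 0)
    (by decide +kernel)

theorem p1_5_0 : Ok par f5 ((Box3.unit.l 1).l 1) (selB 0 (selB 0 C1 463168674591356954098168209642892740566244212869183588808254027436312789778299) 9596245298188703829589988) :=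
  Ok.run hw hf5 ⟨468,25,25,1,10⟩ 59
    (.part 16256 (.chk false 0) (.split 1 (.part 96 (.chk false 0) (.split 0 (.part 17 (.chk false 0) (.split 1 (.split 0 (.part 1 (.chk false 0) (.split 0 (.chk false 0) (.chk false 0))) (.part 6 (.chk false 0) (.split 1 (.split 0 (.chk false 0) (.chk false 0)) (.chk false 0)))) (.chk false 0))) (.part 15 (.chk false 0) (.split 0 (.chk false 0) (.split 1 (.chk false 0) (.chk false 0)))))) (.part 63 (.chk false 0) (.split 0 (.chk false 0) (.split 1 (.chk false 0) (.chk false 0))))))
    (by decide +kernel)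

theorem p1_5_1 : Ok par f5 ((Box3.unit.l 1).r 1) (selB 0 (selB 0 C1 463168674591356954098168209642892740566244212869183588808254027436312789778299) 9596245298188703829589988) :=
  Ok.run hw hf5 ⟨419,25,25,1,10⟩ 59
    (.part 127 (.chk false 0) (.split 1 (.part 122 (.chk false 0) (.split 0 (.part 2 (.chk false 0) (.split 0 (.split 0 (.chk false 0) (.chk false 0)) (.chk false 0))) (.part 1 (.chk false 0) (.split 1 (.chk false 0) (.chk false 0))))) (.part 103 (.chk false 0) (.split 0 (.chk false 0) (.split 1 (.chk false 0) (.chk false 0))))))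
    (by decide +kernel)

theorem p1_5_2 : Ok par f5 (Box3.unit.l 1) (selB 1 (selB 0 C1 463168674591356954098168209642892740566244212869183588808254027436312789778299) 9596245298188703829589988) :=
  Ok.run hw hf5 ⟨280,25,25,1,10⟩ 59
    (.chk false 0)
    (by decide +kernel)

theorem p1_5_3 : Ok par f5 ((((((Box3.unit.r 1).r 1).l 0).r 1).r 0).l 1) (selB 0 (selB 0 (selB 0 (selB 0 (selB 0 (selB 0 C1 463168674591356954098168209642892740566244212869183588808254027436312789778299) 75165870414897753358363) 53827022754922111018) 15762756586045389) 3188999) 24613) :=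
  Ok.run hw hf5 ⟨529,25,25,1,10⟩ 59
    (.part 319 (.chk false 0) (.split 0 (.part 15 (.chk false 0) (.split 1 (.chk false 0) (.chk false 0))) (.part 1 (.chk false 0) (.split 1 (.part 13 (.chk false 0) (.split 0 (.chk false 0) (.split 1 (.split 0 (.chk false 0) (.chk false 0)) (.chk false 0)))) (.part 14 (.chk false 0) (.split 0 (.chk false 0) (.chk false 0)))))))
    (by decide +kernel)

theorem p1_5_4 : Ok par f5 ((((((Box3.unit.r 1).r 1).l 0).r 1).r 0).r 1) (selB 0 (selB 0 (selB 0 (selB 0 (selB 0 (selB 0 C1 463168674591356954098168209642892740566244212869183588808254027436312789778299) 75165870414897753358363) 53827022754922111018) 15762756586045389) 3188999) 24613) :=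
  Ok.run hw hf5 ⟨540,25,25,1,10⟩ 59
    (.part 3635 (.chk false 0) (.split 0 (.part 29 (.chk false 0) (.split 0 (.split 1 (.split 0 (.chk false 0) (.split 1 (.chk false 0) (.chk false 0))) (.chk false 0)) (.chk false 0))) (.part 10 (.chk false 0) (.split 1 (.part 1 (.chk false 0) (.split 0 (.split 1 (.part 1 (.chk false 0) (.split 0 (.chk false 0) (.chk false 0))) (.chk false 0)) (.chk false 0))) (.chk false 0)))))
    (by decide +kernel)

theorem p1_5_5 : Ok par f5 (((((Box3.unit.r 1).r 1).l 0).r 1).r 0) (selB 1 (selB 0 (selB 0 (selB 0 (selB 0 (selB 0 C1 463168674591356954098168209642892740566244212869183588808254027436312789778299) 75165870414897753358363) 53827022754922111018) 15762756586045389) 3188999) 24613) :=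
  Ok.run hw hf5 ⟨391,25,25,1,10⟩ 59
    (.chk false 0)
    (by decide +kernel)

theorem p1_5_6 : Ok par f5 (((((Box3.unit.r 1).r 1).l 0).r 1).l 0) (selB 0 (selB 0 (selB 0 (selB 0 (selB 0 C1 463168674591356954098168209642892740566244212869183588808254027436312789778299) 75165870414897753358363) 53827022754922111018) 15762756586045389) 3188999) :=
  Ok.run hw hf5 ⟨403,25,25,1,10⟩ 59
    (.chk false 0)
    (by decide +kernel)

theorem p1_5_7 : Ok par f5 ((((Box3.unit.r 1).r 1).l 0).r 1) (selB 1 (selB 0 (selB 0 (selB 0 (selB 0 C1 463168674591356954098168209642892740566244212869183588808254027436312789778299) 75165870414897753358363) 53827022754922111018) 15762756586045389) 3188999) :=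
  Ok.run hw hf5 ⟨374,25,25,1,10⟩ 59
    (.chk false 0)
    (by decide +kernel)

theorem p1_5_8 : Ok par f5 ((((Box3.unit.r 1).r 1).l 0).l 1) (selB 0 (selB 0 (selB 0 (selB 0 C1 463168674591356954098168209642892740566244212869183588808254027436312789778299) 75165870414897753358363) 53827022754922111018) 15762756586045389) :=
  Ok.run hw hf5 ⟨439,25,25,1,10⟩ 59
    (.part 64486910 (.chk false 0) (.split 0 (.chk false 0) (.part 3 (.chk false 0) (.split 1 (.chk false 0) (.part 2 (.chk false 0) (.split 0 (.chk false 0) (.chk false 0)))))))
    (by decide +kernel)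

theorem p1_5_9 : Ok par f5 (((Box3.unit.r 1).r 1).l 0) (selB 1 (selB 0 (selB 0 (selB 0 C1 463168674591356954098168209642892740566244212869183588808254027436312789778299) 75165870414897753358363) 53827022754922111018) 15762756586045389) :=
  Ok.run hw hf5 ⟨347,25,25,1,10⟩ 59
    (.chk false 0)
    (by decide +kernel)

theorem p1_5_10 : Ok par f5 ((((Box3.unit.r 1).r 1).r 0).l 1) (selB 0 (selB 0 (selB 0 (selB 0 C1 463168674591356954098168209642892740566244212869183588808254027436312789778299) 75165870414897753358363) 53827022754922111018) 17312994487157190) :=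
  Ok.run hw hf5 ⟨457,25,25,1,10⟩ 59
    (.part 232259567 (.chk false 0) (.split 1 (.chk false 0) (.part 1 (.chk false 0) (.split 0 (.part 4 (.chk false 0) (.split 0 (.part 2 (.chk false 0) (.split 1 (.chk false 0) (.chk false 0))) (.chk false 0))) (.chk false 0)))))
    (by decide +kernel)


end Crest.Agent.R163.S2
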